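import Vale.Agent.P286EB.QP
import Vale.Agent.P286EN.Grp

/-!
# The determinant of the adjoint action and the volume form on the lattices of the charts
-/

set_option linter.all false

namespace Vale.Agent.P286EY

open Matrix Vale.Agent.P286 Vale.Agent.P286E Vale.Agent.P286EN Vale.Agent.P286EB
open Vale.Agent.P286ET (Ix)

noncomputable section

attribute [-instance] HahnSeries.powerSeriesAlgebra

section ring

variable {R : Type} [CommRing R]

theorem det_ad2 (ι : ℂ →+* R) (a : Matrix (Fin 2) (Fin 2) R) (ha : a.det = 1) :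
    (of fun i j => ι 2⁻¹ * trace ((b2 i).map ι * a * (b2 j).map ι * a.adjugate)).det = 1 := by
  have h1 := iota_half ι
  have h2 := iota_I ι
  rw [det_fin_two] at ha
  simp [det_fin_three, b2, trace_fin_two, adjugate_fin_two, Matrix.mul_apply, Fin.sum_univ_two]
  generalize ι 2⁻¹ = c at h1
  generalize ι Complex.I = i at h2
  grind

theorem rm_ad (ι : ℂ →+* R) (a : Matrix (Fin 3) (Fin 3) R) (ξ : Fin 3 → R) :
    rm ι (a *ᵥ ξ) * a = a.adjugateᵀ * rm ι ξ := by
  refine Matrix.toLin'.injective (LinearMap.ext fun m => ?_)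
  rw [toLin'_apply, toLin'_apply, ← mulVec_mulVec, ← mulVec_mulVec, rm_mulVec, rm_mulVec,
    cross_mulVec, mulVec_smul]

theorem adj_proj {π : Matrix (Fin 3) (Fin 3) R} (h : Rk1 π) (ht : trace π = 1) :
    (1 - π).adjugate = π := by
  rw [trace_fin_three] at ht
  rw [adjugate_fin_three]
  ext a b
  fin_cases a <;> fin_cases b <;> simp [Matrix.one_apply]
  · linear_combination h 1 1 2 2 - ht
  · linear_combination -h 0 1 2 2
  · linear_combination h 0 1 1 2
  · linear_combination -h 1 0 2 2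
  · linear_combination h 0 0 2 2 - ht
  · linear_combination -h 0 0 1 2
  · linear_combination h 1 0 2 1
  · linear_combination -h 0 0 2 1
  · linear_combination h 0 0 1 1 - ht

theorem det_rows (u v w : Fin 3 → R) : (of ![u, v, w]).det = u ⬝ᵥ v ⨯₃ w :=
  (triple_product_eq_det u v w).symm

theorem det_proj {π : Matrix (Fin 3) (Fin 3) R} (h : Rk1 π) (ht : trace π = 1) (hp : π * π = π)
    (z : R) (u v w : Fin 3 → R) :
    (of ![(z • π) *ᵥ u, (1 - π) *ᵥ v, (1 - π) *ᵥ w]).det = z * ((π *ᵥ u) ⬝ᵥ v ⨯₃ w) := by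
  rw [det_rows, cross_mulVec, adj_proj h ht, dotProduct_mulVec, vecMul_transpose, mulVec_mulVec,
    Matrix.mul_smul, hp, smul_mulVec, smul_dotProduct, smul_eq_mul]

theorem det_trace (π : Matrix (Fin 3) (Fin 3) R) (m : Fin 3 → Fin 3 → R) :
    trace π * (of m).det = (π *ᵥ m 0) ⬝ᵥ m 1 ⨯₃ m 2 + (π *ᵥ m 1) ⬝ᵥ m 2 ⨯₃ m 0 +
      (π *ᵥ m 2) ⬝ᵥ m 0 ⨯₃ m 1 := by
  simp [det_fin_three, trace_fin_three, cross_apply, mulVec, dotProduct, Fin.sum_univ_three]
  ring

theorem det_scale (a b c : R) (m : Fin 3 → Fin 3 → R) :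
    (of ![a • m 0, b • m 1, c • m 2]).det = a * b * c * (of m).det := by
  simp [det_fin_three]
  ring

theorem rm_cube (ι : ℂ →+* R) (ξ : Fin 3 → R) : rm ι ξ * rm ι ξ * rm ι ξ = (ξ ⬝ᵥ ξ) • rm ι ξ := by
  rw [rm_sq, rm_eq]
  ext a b
  fin_cases a <;> fin_cases b <;>
    simp [Matrix.mul_apply, Fin.sum_univ_three, vecMulVec_apply, Matrix.one_apply, dotProduct] <;>
    ring

theorem adj_rm_sq (ι : ℂ →+* R) (ξ : Fin 3 → R) :
    (rm ι ξ * rm ι ξ).adjugate = (ξ ⬝ᵥ ξ) ^ 2 • 1 - (ξ ⬝ᵥ ξ) • (rm ι ξ * rm ι ξ) := by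
  rw [rm_sq, adjugate_fin_three]
  ext a b
  fin_cases a <;> fin_cases b <;>
    simp [Fin.sum_univ_three, vecMulVec_apply, Matrix.one_apply, dotProduct] <;> ring

theorem tr_rm_sq (ι : ℂ →+* R) (ξ : Fin 3 → R) : trace (rm ι ξ * rm ι ξ) = 2 * (ξ ⬝ᵥ ξ) := by
  rw [rm_sq]
  simp [trace_fin_three, vecMulVec_apply, dotProduct, Fin.sum_univ_three]
  ring

theorem rm_sq_symm (ι : ℂ →+* R) (ξ : Fin 3 → R) : (rm ι ξ * rm ι ξ)ᵀ = rm ι ξ * rm ι ξ := by
  rw [rm_sq, transpose_sub, transpose_smul, transpose_one, transpose_vecMulVec]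

end ring

theorem detad : DETAD := by
  intro G hG A _ _ a ha
  rcases hG with rfl | rfl
  · have : SL2.ad a = of fun i j => io A 2⁻¹ *
        trace (cst A (SL2.β i) * a * cst A (SL2.β j) * a.adjugate) :=
      Matrix.ext fun i j => Grp.ad_apply a i j
    rw [this]
    exact det_ad2 (io A) a ha.det
  · have h1 : aᵀ * a = 1 := by
      have := ha.form
      rwa [show cst A SO3.F = 1 from cst_one, Matrix.mul_one] at this
    have h2 : a.adjugateᵀ = a := by
      rw [ha.adj_eq (mul_eq_one_comm.1 h1), transpose_transpose]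
    have : SO3.ad a = a := Grp.mat_ext fun ξ => (ok_SO3.eq_ad ha (by
      have := rm_ad (io A) a ξ
      exact this.trans (congrArg (· * _) h2))).symm
    rw [this]
    exact ha.det

variable {A : Type} [CommRing A] [Algebra ℂ A] {E : Ell}

theorem sr_sq (c : A) : sr c * sr c = xs A - HahnSeries.C c := by
  have h := congrFun (congrFun (rho_mul_rho (N := 1) (of fun _ _ => c)) 0) 0
  simpa [Matrix.mul_apply, cm_apply, sr] using h

theorem sr_sI (c : A) : sr c * sI c = 1 := by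
  have h := congrFun (congrFun (rho_mul_rhoI (N := 1) (of fun _ _ => c)) 0) 0
  simpa [Matrix.mul_apply, sr, sI] using h

/-- The ideal `J²` is the unit ideal. -/
theorem jj (e : Rt E) : ys E A * sI (ea e A) * (ys E A * sI (ea e A)) =
    (xs A + 2 * HahnSeries.C (ea e A)) * (sr (ea e A) * sr (ea e A)) + HahnSeries.C (da e A) := by
  have h1 := sr_sq (ea e A)
  have h2 := sr_sI (ea e A)
  have h3 := ys_sq E (A := A)
  have h4 := congrArg (HahnSeries.C : A →+* Ls A) (ea_rt (A := A) e)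
  have h5 := congrArg (HahnSeries.C : A →+* Ls A) (da_eq (A := A) e)
  simp only [P286EB.fv, gv, map_add, map_mul, map_pow, map_zero] at h4 h5
  simp only [cc] at h3
  rw [h5]
  generalize sr (ea e A) = s at *
  generalize sI (ea e A) = t at *
  grind

theorem reg_of_J (e : Rt E) {z : Ls A} (h1 : InJ e (sr (ea e A) * z))
    (h2 : InJ e (ys E A * sI (ea e A) * z)) : E.Reg z := by
  obtain ⟨u, hu⟩ := da_unit (A := A) e
  have h3 : z = HahnSeries.C ((u⁻¹ : Aˣ) : A) * (ys E A * sI (ea e A) * (ys E A * sI (ea e A) * z) -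
      (xs A + 2 * HahnSeries.C (ea e A)) * (sr (ea e A) * (sr (ea e A) * z))) := by
    have h4 : (HahnSeries.C ((u⁻¹ : Aˣ) : A) : Ls A) * HahnSeries.C (da e A) = 1 := by
      rw [← map_mul, ← hu, Units.inv_mul, map_one]
    linear_combination (-(HahnSeries.C ((u⁻¹ : Aˣ) : A) : Ls A) * z) * jj (A := A) e - z * h4
  have hC : ∀ c : A, (HahnSeries.C c : Ls A) ∈ Rg E A := fun c => P286ER.reg_C c
  rw [h3]
  exact (Rg E A).mul_mem (hC _) ((Rg E A).sub_mem h2.2 ((Rg E A).mul_mem ((Rg E A).add_mem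
    (Px_le_Rg E xs_mem_Px) ((Rg E A).mul_mem (ofNat_mem _ 2) (hC _))) h1.1))

theorem vv_b (e : Rt E) {x : A} {ξ : Fin 3 → A} (h : ξ ⬝ᵥ ξ = P286EB.fv E x) (hu : IsUnit (gv e x)) :
    Vv e x (Ring.inverse (gv e x) • (y3 ξ * y3 ξ)) ξ := by
  have h1 := Ring.inverse_mul_cancel _ hu
  have h2 : Ring.inverse (gv e x) * (ξ ⬝ᵥ ξ) = x - ea e A := by
    rw [h, fv_fac e]
    linear_combination (x - ea e A) * h1
  have h3 : y3 ξ * y3 ξ * y3 ξ = (ξ ⬝ᵥ ξ) • y3 ξ := rm_cube (algebraMap ℂ A) ξ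
  have h4 : (y3 ξ * y3 ξ).adjugate = (ξ ⬝ᵥ ξ) ^ 2 • 1 - (ξ ⬝ᵥ ξ) • (y3 ξ * y3 ξ) :=
    adj_rm_sq (algebraMap ℂ A) ξ
  have h5 : trace (y3 ξ * y3 ξ) = 2 * (ξ ⬝ᵥ ξ) := tr_rm_sq (algebraMap ℂ A) ξ
  have h6 : (y3 ξ * y3 ξ)ᵀ = y3 ξ * y3 ξ := rm_sq_symm (algebraMap ℂ A) ξ
  refine ⟨by rw [transpose_smul, h6], ?_, ?_, ?_, ?_, ?_⟩
  · rw [smul_mul_smul_comm, ← Matrix.mul_assoc, h3, Matrix.smul_mul, smul_smul, smul_smul, ← h2]
    congr 1
    ring
  · rw [trace_smul, h5, smul_eq_mul, ← h2]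
    ring
  · rw [adjugate_smul, h4, smul_sub, smul_smul, smul_smul, smul_smul, ← h2, Fintype.card_fin]
    congr 2 <;> ring
  · rw [Matrix.smul_mul, h3, smul_smul, h2]
  · rw [smul_smul, mul_comm (gv e x), h1, one_smul]

theorem vv_a (e : Rt E) {x : A} {ξ : Fin 3 → A} {π : Matrix (Fin 3) (Fin 3) A} (hs : πᵀ = π)
    (ht : trace π = 1) (hr : Rk1 π) (hp : π * π = π) (hk : π * y3 ξ = 0)
    (hm : MPt E (ea e A • π + x • (1 - π)) (y3 ξ)) : Vv e x ((x - ea e A) • (1 - π)) ξ := by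
  have hq : (1 - π) * (1 - π) = 1 - π := by
    rw [Matrix.sub_mul, Matrix.mul_sub, Matrix.mul_sub, hp]
    simp
  refine ⟨by rw [transpose_smul, transpose_sub, transpose_one, hs], ?_, ?_, ?_, ?_, ?_⟩
  · rw [smul_mul_smul_comm, hq, smul_smul]
  · rw [trace_smul, trace_sub, ht, trace_one, Fintype.card_fin, smul_eq_mul]
    push_cast
    ring
  · rw [adjugate_smul, adj_proj hr ht, Fintype.card_fin]
    module
  · rw [Matrix.smul_mul, Matrix.sub_mul, hk, Matrix.one_mul, sub_zero]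
  · have h1 : ∀ a b c d : A, (a • π + b • (1 - π)) * (c • π + d • (1 - π)) =
        (a * c) • π + (b * d) • (1 - π) := fun a b c d => by
      simp only [Matrix.add_mul, Matrix.mul_add, Matrix.smul_mul, Matrix.mul_smul, Matrix.mul_sub,
        Matrix.sub_mul, hp, Matrix.one_mul, Matrix.mul_one]
      module
    have h2 := ea_rt (A := A) e
    have h3 := fv_fac e x
    rw [P286EB.fv] at h2 h3
    rw [hm.eqn, pow_succ, pow_two, h1, h1, ← algebraMap_smul A E.a, ← algebraMap_smul A E.b]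
    linear_combination (norm := module) h2 • π + h3 • (1 - π)

theorem vol_one (e : Rt E) {M : Submodule A (Fin 3 → Ls A)}
    (key : ∀ u v w, u ∈ M → v ∈ M → w ∈ M → InJ e (of ![u, v, w]).det)
    (m : Fin 3 → Fin 3 → Ls A) (hm : ∀ k, m k ∈ tw e (cm 1) M) : E.Reg (of m).det := by
  have hs : ∀ (z : Ls A) (u : Fin 3 → Ls A), act (z • cm (1 : Matrix (Fin 3) (Fin 3) A)) u =
      z • u := fun z u => by rw [act_apply, cm_one, smul_mulVec, one_mulVec]
  have k1 : ∀ k, sr (ea e A) • m k ∈ M := fun k => (congrArg (· ∈ _) (hs _ _)).mp (hm k).1.2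
  have k2 : ∀ k, (ys E A * sI (ea e A)) • m k ∈ M := fun k =>
    (congrArg (· ∈ _) (hs _ _)).mp (hm k).2
  have a1 := key _ _ _ (k1 0) (k1 1) (k1 2)
  have a2 := key _ _ _ (k2 0) (k1 1) (k1 2)
  have a3 := key _ _ _ (k2 0) (k2 1) (k1 2)
  have a4 := key _ _ _ (k2 0) (k2 1) (k2 2)
  rw [det_scale] at a1 a2 a3 a4
  refine reg_of_J e ⟨reg_of_J e ?_ ?_, reg_of_J e ?_ ?_⟩ ⟨reg_of_J e ?_ ?_, reg_of_J e ?_ ?_⟩
  · convert a1 using 1; ring
  · convert a2 using 1; ring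
  · convert a2 using 1; ring
  · convert a3 using 1; ring
  · convert a2 using 1; ring
  · convert a3 using 1; ring
  · convert a3 using 1; ring
  · convert a4 using 1; ring

theorem vol_proj (e : Rt E) {M : Submodule A (Fin 3 → Ls A)}
    (key : ∀ u v w, u ∈ M → v ∈ M → w ∈ M → InJ e (of ![u, v, w]).det)
    {π : Matrix (Fin 3) (Fin 3) A} (ht : trace π = 1) (hr : Rk1 π) (hp : π * π = π)
    (m : Fin 3 → Fin 3 → Ls A) (hm : ∀ k, m k ∈ tw e (cm π) M) : E.Reg (of m).det := by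
  have r1 : Rk1 (cm π) := fun a b c d => by
    rw [cm_apply, cm_apply, cm_apply, cm_apply, ← map_mul, ← map_mul, hr]
  have r2 : trace (cm π) = 1 :=
    (AddMonoidHom.map_trace (HahnSeries.C : A →+* Ls A) π).symm.trans (by rw [ht, map_one])
  have r3 : cm π * cm π = cm π := by rw [← cm_mul, hp]
  have t : ∀ a b c, E.Reg ((cm π *ᵥ m a) ⬝ᵥ m b ⨯₃ m c) := fun a b c => by
    have a1 := key _ _ _ (hm a).1.2 (hm b).1.1 (hm c).1.1
    have a2 := key _ _ _ (hm a).2 (hm b).1.1 (hm c).1.1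
    exact reg_of_J e ((congrArg (InJ e) (det_proj r1 r2 r3 _ _ _ _)).mp a1)
      ((congrArg (InJ e) (det_proj r1 r2 r3 _ _ _ _)).mp a2)
  have := det_trace (cm π) m
  rw [r2, one_mul] at this
  rw [this]
  exact P286ER.reg_add (P286ER.reg_add (t 0 1 2) (t 1 2 0)) (t 2 0 1)

theorem vol_of (hV : VOL) (e : Rt E) {x : A} {ξ : Fin 3 → A} {X Z : Matrix (Fin 3) (Fin 3) A}
    (hX : MPt E X (y3 ξ)) (h : Vv e x Z ξ) (hZ : X - ea e A • 1 = Z) :
    ∀ u v w, u ∈ U E X (y3 ξ) → v ∈ U E X (y3 ξ) → w ∈ U E X (y3 ξ) →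
      InJ e (of ![u, v, w]).det := fun u v w hu hv hw => by
  subst hZ
  refine (hV E e A X ξ ?_ hX).2 ⟨x, h⟩ _ fun k => ?_
  · have := h.sym
    rwa [transpose_sub, transpose_smul, transpose_one, sub_left_inj] at this
  · fin_cases k
    exacts [hu, hv, hw]

theorem sub_e (c x : A) (π : Matrix (Fin 3) (Fin 3) A) :
    c • π + x • (1 - π) - c • 1 = (x - c) • (1 - π) := by module

theorem famv (hV : VOL) (hF : FAMM) : FAMV := by
  intro E e G hG A _ _ i x ξ π hp m hm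
  obtain ⟨h1, h2, -, h4, -, h6, -, -⟩ := hF E e G hG A i x ξ π hp
  rcases hG with rfl | rfl
  · exact vol_two (M := FM e SL2 i x ξ π) h6 m hm
  by_cases hi : i = .b
  · subst hi
    obtain ⟨hu, rfl⟩ := hp.ub rfl
    exact vol_one e (vol_of hV e h1 (vv_b e hp.sq hu) (add_sub_cancel_left _ _)) m hm
  · have hr := hp.pr hi
    have hX : Xm e SO3 i x ξ π = ea e A • π + x • (1 - π) := by
      cases i
      · rfl
      · exact absurd rfl hi
      · rfl
    have hs : πᵀ = π := by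
      have := hr.adj
      rwa [show SO3.F.map (algebraMap ℂ A) = 1 from Matrix.map_one _ (map_zero _) (map_one _),
        Matrix.mul_one, Matrix.one_mul] at this
    have ht : trace π = 1 := hr.tr.trans (by change ((3 : ℕ) : A) - 2 = 1; norm_num)
    exact vol_proj e (vol_of hV e h1 (vv_a e hs ht hr.rk h2 (h4.trans hr.ker) (hX ▸ h1))
      ((congrArg (fun Z : Matrix (Fin 3) (Fin 3) A => Z - ea e A • 1) hX).trans (sub_e _ _ _))) ht hr.rk h2 m hm

end

end Vale.Agent.P286EY
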